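import Vale.Agent.P092.H604.T3

/-!
P092, [CLA] (helper899): T3 (helper604's `t3_inc`) over every local field, from helper179's
insertion lemma (`InsP`); no total disconnectedness.
-/

set_option linter.all false

namespace Vale.Agent.P092.H899.R

open Set Topology
open Vale.Agent.P092.H232 (Nin two_ind split_inc)
open Vale.Agent.P092.H604.T3 (inc_trans)

section ins

variable {A B K : Type*} [TopologicalSpace A] [CompactSpace A] [T2Space A]
  [TopologicalSpace B] [CompactSpace B] [T2Space B]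
  [NormedAddCommGroup K] [InnerProductSpace ℂ K] [CompleteSpace K]

/-- **The conclusion of the insertion lemma** for `ν` (spaces of codimension one in the values of
`ζ` and of `μ`). -/
def InsP (ν : C(A, ℂ) →⋆ₐ[ℂ] (K →L[ℂ] K)) (ζ μ : C(B, ℂ) →⋆ₐ[ℂ] (K →L[ℂ] K)) : Prop :=
  ∀ X Y : K →L[ℂ] K, (∀ v, Commute X (ζ v)) → (∀ w, X * μ w * Y = 0) →
    ∀ (t : C(A, ℂ)) (v w : C(B, ℂ)), Disjoint (tsupport ⇑v) (tsupport ⇑w) →
      X * ν t * ζ v * μ w * Y = 0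

end ins

section flip

variable {X₁ X₂ X₃ K : Type*} [TopologicalSpace X₁] [CompactSpace X₁] [T2Space X₁]
  [TopologicalSpace X₂] [CompactSpace X₂] [T2Space X₂]
  [TopologicalSpace X₃] [CompactSpace X₃] [T2Space X₃]
  [NormedAddCommGroup K] [InnerProductSpace ℂ K] [CompleteSpace K]
  {In : X₁ → X₃ → Prop} {Sb : X₂ → X₃ → Prop}
  (hIn : IsClosed {q : X₁ × X₃ | In q.1 q.2}) (hSb : IsClosed {q : X₂ × X₃ | Sb q.1 q.2})
  (geo : ∀ x L A A', ¬ In x L → Sb A L → Sb A' L → (∃ M, In x M ∧ Sb A M) →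
    (∃ M, In x M ∧ Sb A' M) → A = A')

/-- a point and an `(r-1)`-space in a common maximal subspace -/
def Pp (In : X₁ → X₃ → Prop) (Sb : X₂ → X₃ → Prop) (x : X₁) (A : X₂) : Prop :=
  ∃ M, In x M ∧ Sb A M

include hIn hSb in
theorem isClosed_Pp : IsClosed {q : X₁ × X₂ | Pp In Sb q.1 q.2} := by
  have h : {q : X₁ × X₂ | Pp In Sb q.1 q.2} =
      Prod.fst '' {q : (X₁ × X₂) × X₃ | In q.1.1 q.2 ∧ Sb q.1.2 q.2} := by
    ext q
    constructor
    · rintro ⟨z, h1, h2⟩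
      exact ⟨(q, z), ⟨h1, h2⟩, rfl⟩
    · rintro ⟨⟨q', z⟩, ⟨h1, h2⟩, rfl⟩
      exact ⟨z, h1, h2⟩
  rw [h]
  have h1 : IsClosed {q : (X₁ × X₂) × X₃ | In q.1.1 q.2} :=
    hIn.preimage (f := fun q : (X₁ × X₂) × X₃ => (q.1.1, q.2)) (by fun_prop)
  have h2 : IsClosed {q : (X₁ × X₂) × X₃ | Sb q.1.2 q.2} :=
    hSb.preimage (f := fun q : (X₁ × X₂) × X₃ => (q.1.2, q.2)) (by fun_prop)
  exact ((h1.inter h2).isCompact.image continuous_fst).isClosed

/-- a line `l` through `p` which meets the maximal subspace `w` in `q` -/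
structure Br (In : X₁ → X₃ → Prop) (Sb : X₂ → X₃ → Prop)
    (E : C(X₁, ℂ) →⋆ₐ[ℂ] (K →L[ℂ] K)) (F : C(X₃, ℂ) →⋆ₐ[ℂ] (K →L[ℂ] K))
    (G : C(X₂, ℂ) →⋆ₐ[ℂ] (K →L[ℂ] K)) (Q : C(X₃, ℂ) →⋆ₐ[ℂ] (K →L[ℂ] K)) : Prop where
  /-- `p ∈ l` -/
  cF : ∀ g u, Commute (G g) (F u)
  iF : ∀ g u, Nin Sb g u → G g * F u = 0
  /-- `q ∈ l` -/
  iQ : ∀ g u, Nin Sb g u → G g * Q u = 0
  /-- `q ∈ w` -/
  iE : ∀ a u, Nin In a u → Q u * E a = 0

include hIn hSb in
theorem Br.perp {E : C(X₁, ℂ) →⋆ₐ[ℂ] (K →L[ℂ] K)} {F : C(X₃, ℂ) →⋆ₐ[ℂ] (K →L[ℂ] K)}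
    {G : C(X₂, ℂ) →⋆ₐ[ℂ] (K →L[ℂ] K)} {Q : C(X₃, ℂ) →⋆ₐ[ℂ] (K →L[ℂ] K)} (b : Br In Sb E F G Q)
    (g : C(X₂, ℂ)) (a : C(X₁, ℂ)) (h : Nin (Pp In Sb) a g) : G g * E a = 0 :=
  inc_trans hSb hIn G Q E b.iQ b.iE g a fun A hA x hx M h1 h2 => h x hx A hA ⟨M, h2, h1⟩

include hIn in
/-- a function which is `1` near the spaces containing a point of the support of `a` and `0` near
the support of `u` -/
theorem exists_cutD (u : C(X₃, ℂ)) (a : C(X₁, ℂ)) (h : Nin In a u) :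
    ∃ w : C(X₃, ℂ), Disjoint (tsupport ⇑u) (tsupport ⇑w) ∧ Nin In a (1 - w) := by
  obtain ⟨D, hD⟩ : ∃ D : Set X₃, D = {L | ∃ x ∈ tsupport ⇑a, In x L} := ⟨_, rfl⟩
  have hDc : IsClosed D := by
    rw [hD]
    exact H835.isClosed_meet hIn (isClosed_tsupport _)
  obtain ⟨w, h1, h2, -⟩ := H835.exists_cut (F := D) (W := (tsupport ⇑u)ᶜ) hDc
    (isClosed_tsupport _).isOpen_compl fun L hL hu => by
      rw [hD] at hL
      obtain ⟨x, hx, hxL⟩ := hL
      exact h x hx L hu hxL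
  refine ⟨w, disjoint_left.2 fun L h3 h4 => h1 h4 h3, fun x hx L hL hxL => ?_⟩
  exact disjoint_left.1 h2 hL (by rw [hD]; exact ⟨x, hx, hxL⟩)

include hIn hSb geo in
/-- **T3, first part, every local field.** -/
theorem t3_inc {E : C(X₁, ℂ) →⋆ₐ[ℂ] (K →L[ℂ] K)} {F : C(X₃, ℂ) →⋆ₐ[ℂ] (K →L[ℂ] K)}
    {G G' : C(X₂, ℂ) →⋆ₐ[ℂ] (K →L[ℂ] K)} {Q Q' : C(X₃, ℂ) →⋆ₐ[ℂ] (K →L[ℂ] K)}
    (b : Br In Sb E F G Q) (b' : Br In Sb E F G' Q')
    (cE : ∀ u a, Commute (Q' u) (E a)) (ins : InsP G' F Q')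
    (agr : ∀ ξ, (∀ g, G g ξ = G' g ξ) → ξ = 0) (u : C(X₃, ℂ)) (a : C(X₁, ℂ)) (h : Nin In a u) :
    F u * E a = 0 := by
  obtain ⟨w, hw, hwa⟩ := exists_cutD hIn u a h
  have hE : E a = Q' w * E a := by
    have h1 := b'.iE a (1 - w) hwa
    rw [map_sub, map_one, sub_mul, one_mul, sub_eq_zero] at h1
    exact h1
  have hP := isClosed_Pp hIn hSb
  -- (2)
  have key : ∀ g g' : C(X₂, ℂ), Disjoint (tsupport ⇑g) (tsupport ⇑g') →
      G g * G' g' * F u * Q' w * E a = 0 := by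
    intro g g' hgg
    refine two_ind (A := K →L[ℂ] K) (S₁ := tsupport ⇑u) (S₂ := tsupport ⇑a)
      (fun u' a' => G g * G' g' * F u' * Q' w * E a')
      (fun u' u'' a' => by simp only [map_add, mul_add, add_mul])
      (fun u' a' a'' => by simp only [map_add, mul_add, add_mul])
      (isClosed_tsupport _).isCompact (isClosed_tsupport _).isCompact
      (fun L hL x hx => ?_) u a subset_rfl subset_rfl
    have hxL : ¬ In x L := h x hx L hL
    have hSb' : IsClosed {q : X₃ × X₂ | Sb q.2 q.1} := hSb.preimage continuous_swap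
    by_cases hc : ∀ A ∈ tsupport ⇑g', Sb A L → Pp In Sb x A → False
    · obtain ⟨v₁, v₂, hv, O, V, hO, hLO, hV, hxV, e1, e2⟩ :=
        split_inc (I₁ := fun L A => Sb A L) (I₂ := fun x A => Pp In Sb x A) hSb' hP
          (x := L) (y := x) g' hc
      refine ⟨O, V, hO, hLO, hV, hxV, fun u' a' hu' ha' => ?_⟩
      have d1 : G' v₁ * F u' = 0 := b'.iF _ _ fun A hA L' hL' hs => e1 u' hu' L' hL' A hA hs
      have d2 : G' v₂ * E a' = 0 := b'.perp hIn hSb _ _ (e2 a' ha')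
      have d3 : G' g' * F u' * Q' w * E a' = 0 := by
        rw [hv, map_add, add_mul, d1, zero_add]
        calc G' v₂ * F u' * Q' w * E a' = F u' * (G' v₂ * E a') * Q' w := by
              rw [(b'.cF v₂ u').eq, mul_assoc _ (Q' w), (cE w a').eq]
              simp only [mul_assoc]
          _ = 0 := by rw [d2, mul_zero, zero_mul]
      calc G g * G' g' * F u' * Q' w * E a' = G g * (G' g' * F u' * Q' w * E a') := by
            simp only [mul_assoc]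
        _ = 0 := by rw [d3, mul_zero]
    · push Not at hc
      obtain ⟨A₀, hA₀, h10, h20, -⟩ := hc
      have hs : ∀ A ∈ tsupport ⇑g, Sb A L → Pp In Sb x A → False := by
        intro A hA h1 h2
        rw [geo x L A A₀ hxL h1 h10 h2 h20] at hA
        exact disjoint_left.1 hgg hA hA₀
      obtain ⟨v₁, v₂, hv, O, V, hO, hLO, hV, hxV, e1, e2⟩ :=
        split_inc (I₁ := fun L A => Sb A L) (I₂ := fun x A => Pp In Sb x A) hSb' hP
          (x := L) (y := x) g hs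
      refine ⟨O ∩ (tsupport ⇑w)ᶜ, V, hO.inter (isClosed_tsupport _).isOpen_compl,
        ⟨hLO, fun hw' => disjoint_left.1 hw hL hw'⟩, hV, hxV, fun u' a' hu' ha' => ?_⟩
      have d1 : G v₁ * F u' = 0 := b.iF _ _ fun A hA L' hL' hs =>
        e1 u' (hu'.trans inter_subset_left) L' hL' A hA hs
      have d2 : G v₂ * E a' = 0 := b.perp hIn hSb _ _ (e2 a' ha')
      have d3 : G v₁ * G' g' * F u' * Q' w * E a' = 0 := by
        rw [mul_assoc (G v₁), (b'.cF g' u').eq, ← mul_assoc, d1, zero_mul, zero_mul, zero_mul]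
      have d4 : G v₂ * G' g' * F u' * Q' w * E a' = 0 := by
        refine ins (G v₂) (E a') (fun v => b.cF v₂ v) (fun w' => ?_) g' u' w
          (disjoint_left.2 fun L' h1 h2 => (hu' h1).2 h2)
        rw [mul_assoc, (cE w' a').eq, ← mul_assoc, d2, zero_mul]
      rw [hv, map_add, add_mul, add_mul, add_mul, add_mul, d3, d4, add_zero]
  -- (3)
  obtain ⟨T, hT⟩ : ∃ T : K →L[ℂ] K, T = F u * Q' w * E a := ⟨_, rfl⟩
  have hTE : F u * E a = T := by rw [hT, mul_assoc, ← hE]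
  rw [hTE]
  ext ξ
  rw [ContinuousLinearMap.zero_apply]
  refine agr _ fun g => ?_
  have h1 := H218.loc G G' (1 : K →L[ℂ] K) (T ξ) (fun s v hsv => by
    have h2 := congrArg (fun R : K →L[ℂ] K => R ξ) (key s v hsv)
    have h3 : G s * G' v * F u * Q' w * E a = G s * G' v * T := by
      rw [hT]; simp only [mul_assoc]
    rw [h3] at h2
    exact h2) g
  exact h1.symm

end flip

end Vale.Agent.P092.H899.R
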